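import Claimed.Agent.R314.C.Geo.Exit
import Claimed.Agent.R314.SV.Index
import Claimed.Agent.R314.SV.Lap
import Claimed.Agent.R314.SV.Master

/-!
# Row 314, block C, package SV (architect helper154): EXIT CONTRACTS  (statements: helper97, chief C)

Real port of `R316/Base/SV` (`Var`, `Chain`, `Master`, `Index`): energy of explicit trial curves along a minimizing geodesic, variation field `φ(σ) Y(σ)`, `Y` parallel, `φ` a SCALAR smooth weight.
The real `SvGood` has the index form `𝓘 = |Y|² ∫ φ'² - ∫ φ² secA(Y, T)` (energy; the term `⟨T,Y⟩²` enters when passing from the energy to the length `s = √(l · energy)`).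
`rdist` is never differentiated.  The owner replaces the `sorry`s (imports of this file are his; keep the statements, or tell helper97).
Consumers: BUS (`sv_lap`), REG' (`sv_index`, `sv_master`).
Sign conventions (checked by helper258): `riemannCoord G u l i j k = (R(∂_i,∂_j)∂_k)^l`, `R = RGeo.curv`, `ricciCoord_{jk} = Σ_i R^i_{ijk}`, `Ric(T,T) = Σ_i secNum(E_i, T)` for an orthonormal basis (`C/Trace.lean`, helper93).
-/

set_option autoImplicit false
set_option linter.unusedSectionVars false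
open scoped ContDiff Topology
open Set Claims.C0499 Claimed.Agent.R315

namespace Claimed.Agent.R314

variable {V : Type} [NormedAddCommGroup V] [NormedSpace ℝ V] [FiniteDimensional ℝ V]
variable {n : ℕ} {X : Set V} {g : Ten V}

/-- **SV-1** (index inequality, fixed end points).  `γ` a geodesic which is a metric segment on `[a,b]`, `Y` parallel, `f` smooth, `f a = f b = 0`:
`∫ f² Rm(Y,T,T,Y) ≤ |Y|² ∫ f'²`. -/
theorem sv_index (h : CM n X g) {γ Y : ℝ → V} {a b ε : ℝ} (hab : a < b) (hε : 0 < ε)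
    (hγ : IsGeo n X g γ (Ioo (a - ε) (b + ε))) (hseg : IsSeg X g γ (Icc a b))
    (hY : IsPar n X g γ Y (Ioo (a - ε) (b + ε))) {f : ℝ → ℝ} (hf : ContDiff ℝ ∞ f) (hfa : f a = 0)
    (hfb : f b = 0) :
    ∫ σ in a..b, f σ ^ 2 * secA n X g (γ σ) (Y σ) (deriv γ σ) ≤
      g (γ a) (Y a) (Y a) * ∫ σ in a..b, deriv f σ ^ 2 :=
  rsv_index h hab hε hγ hseg hY hf hfa hfb

/-- **SV-2** (master statement, one moving end point).  `γ` a geodesic which is a metric segment on `[0,l]`.  There is a smooth upper support function `s` of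
`rdist (γ 0) ·` at `γ l` with `ds = ⟨T, ·⟩` and `Hess s (Y l, Y l) ≤ |Y|²/l - ⟨T,Y⟩²/l - ∫₀ˡ (σ/l)² Rm(Y,T,T,Y)` for every parallel `Y`. -/
theorem sv_master (h : CM n X g) {γ : ℝ → V} {l ε : ℝ} (hl : 0 < l) (hε : 0 < ε)
    (hγ : IsGeo n X g γ (Ioo (-ε) (l + ε))) (hseg : IsSeg X g γ (Icc 0 l)) :
    ∃ s : V → ℝ, UpperSupp n X (rdist X g (γ 0)) s (γ l) ∧
      (∀ v ∈ if_Tan n X (γ l), tder n X s (γ l) v = g (γ l) (deriv γ l) v) ∧
      ∀ Y : ℝ → V, IsPar n X g γ Y (Ioo (-ε) (l + ε)) →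
        ∀ (ψ : E n → V) (U : Set (E n)), IsParam X ψ U → ∀ u ∈ U, ψ u = γ l → ∀ A : E n,
          fderiv ℝ ψ u A = Y l →
          (rgeo g ψ U).hess (s ∘ ψ) u A A ≤ g (γ l) (Y l) (Y l) / l -
            g (γ l) (deriv γ l) (Y l) ^ 2 / l -
            ∫ σ in (0 : ℝ)..l, (σ / l) ^ 2 * secA n X g (γ σ) (Y σ) (deriv γ σ) := by
  have := rsv_master h (a := 0) (b := l) hl hε (by simpa using hγ) hseg
  simpa using this

/-- **SV-3** (Laplacian comparison in the support sense, `Ric = 0`).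
From `sv_master`: trace over a parallel orthonormal frame `Y_1 = T, Y_2, …, Y_n` (`C/Trace.lean`: `lapC = Σ hess(A_i,A_i)`, `Σ secNum(A_i,B) = Ric(B,B) = 0`; `if_lap_eq`). -/
theorem sv_lap (h : CM n X g) (hR : RicFlat n X g) {o x : V} (ho : o ∈ X) (hx : x ∈ X)
    (hne : o ≠ x) :
    ∃ s : V → ℝ, UpperSupp n X (rdist X g o) s x ∧ lap n X g s x ≤ ((n : ℝ) - 1) / rdist X g o x := by
  have hl : 0 < rdist X g o x := if_rdist_pos h.mfd h.conn.isPreconnected h.met ho hx hne
  obtain ⟨c, hc0, hcl, hc⟩ := exists_seg h ho hx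
  obtain ⟨γ, ε, hε, hγ, heq, hu⟩ := hc.exists_geo h hl
  have h0 : γ 0 = o := by rw [heq ⟨le_rfl, hl.le⟩, hc0]
  have h1 : γ (rdist X g o x) = x := by rw [heq ⟨hl.le, le_rfl⟩, hcl]
  have hseg : IsSeg X g γ (Icc 0 (rdist X g o x)) :=
    ⟨fun s hs => by rw [heq hs]; exact hc.1 s hs,
      fun s hs t ht => by rw [heq hs, heq ht]; exact hc.2 s hs t ht⟩
  have hγ' : IsGeo n X g γ (Ioo (-ε) (rdist X g o x + ε)) := by simpa using hγ
  obtain ⟨s, hs, -, hH⟩ := sv_master h hl hε hγ' hseg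
  have h2 := rsv_lap_of_master h hR hl hε hl hγ hu (w := fun σ => (σ / rdist X g o x) ^ 2)
    (by fun_prop) hs.smooth (by simpa using hH)
  rw [h0, h1] at hs
  rw [h1] at h2
  exact ⟨s, hs, h2⟩

end Claimed.Agent.R314
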